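import Vale.Agent.P236JY.Rd
import Vale.Agent.P236JK.Eng

/-!
# P236JL / Tr : comparison of tables of bits with their transposed tables
-/

noncomputable section

namespace Vale.Agent.P236JL

open Vale.Agent.P236KE Vale.Agent.P236K3 Vale.Agent.P236JY
open Vale.Agent.P236JK (ones ite' ML MLL DTr DTL pairAt)

def rp1 (N i ih : Nat) : Nat := Nat.lor ih (Nat.shiftLeft (nat_lit 1) (Nat.mul N i))
/-- `r` ones at distance `N` -/
def rp (N r : Nat) : Nat := loop (rp1 N) r (nat_lit 0)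
def md (N : Nat) : Nat := Nat.sub (Nat.shiftLeft (nat_lit 1) N) (nat_lit 2)
/-- the bits of `S` at the places `p + N * i`, `i < r` -/
def gat (N r S p : Nat) : Nat := Nat.mod (Nat.land (Nat.shiftRight S p) (rp N r)) (md N)
/-- the bits of `x` at the places `s + i`, `i < r` -/
def cut (r x s : Nat) : Nat := Nat.land (Nat.shiftRight x s) (ones r)
/-- comparison of a column with a row -/
def cmp (N r A B p X Y s : Nat) : Bool :=
  and (Nat.beq (gat N r A p) (cut r X s)) (Nat.beq (gat N r B p) (cut r Y s))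

theorem bit_cut (r x s i : ℕ) : (cut r x s).testBit i = (decide (i < r) && x.testBit (s + i)) := by
  change ((x >>> s) &&& (1 <<< r - 1)).testBit i = _
  rw [Nat.one_shiftLeft, Nat.testBit_and, Nat.testBit_shiftRight, Nat.testBit_two_pow_sub_one,
    Bool.and_comm]

theorem cut_lt (r x s : ℕ) : cut r x s < 2 ^ r :=
  Nat.lt_pow_two_of_testBit _ fun i hi => by rw [bit_cut, decide_eq_false (by omega)]; rfl

theorem gat_aux {N : ℕ} (hN : 0 < N) (y r : ℕ) : ∃ c < 2 ^ r, y &&& rp N r < 2 ^ (N * r) ∧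
    y &&& rp N r ≡ c [MOD 2 ^ N - 2] ∧ ∀ i < r, c.testBit i = y.testBit (N * i) := by
  induction r with
  | zero => exact ⟨0, Nat.one_pos, by simp [rp, loop], by simp [rp, loop, Nat.ModEq], nofun⟩
  | succ r ih =>
    obtain ⟨c, h1, h2, h3, h4⟩ := ih
    have h5 : y &&& rp N (r + 1) = 2 ^ (N * r) * (y.testBit (N * r)).toNat + (y &&& rp N r) := by
      change y &&& (rp N r ||| 1 <<< (N * r)) = _
      rw [Nat.and_or_distrib_left, Nat.one_shiftLeft, Nat.and_two_pow, Nat.or_comm, mul_comm,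
        Nat.two_pow_add_eq_or_of_lt h2]
    have h6 := Bool.toNat_le (y.testBit (N * r))
    have h7 : 2 ^ (N * r) ≡ 2 ^ r [MOD 2 ^ N - 2] := by
      rw [pow_mul]
      exact ((Nat.modEq_iff_dvd' (Nat.le_self_pow hN.ne' 2)).2 dvd_rfl).symm.pow r
    refine ⟨2 ^ r * (y.testBit (N * r)).toNat + c, ?_, ?_, ?_, fun i hi => ?_⟩
    · have := Nat.mul_le_mul_left (2 ^ r) h6
      omega
    · have h8 := Nat.mul_le_mul_left (2 ^ (N * r)) h6
      have h9 : 2 ^ (N * r + 1) ≤ 2 ^ (N * (r + 1)) :=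
        Nat.pow_le_pow_right (by omega) (by rw [Nat.mul_succ]; omega)
      omega
    · rw [h5]
      exact (h7.mul_right _).add h3
    · rw [Nat.testBit_two_pow_mul_add _ h1]
      split_ifs with h
      · exact h4 i h
      · rw [show i = r by omega, Nat.sub_self]
        cases y.testBit (N * r) <;> rfl

theorem bit_gat {N r : ℕ} (h : r + 1 < N) (S p : ℕ) {i : ℕ} (hi : i < r) :
    (gat N r S p).testBit i = S.testBit (p + N * i) := by
  obtain ⟨c, h1, -, h3, h4⟩ := gat_aux (N := N) (by omega) (S >>> p) r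
  have h5 : 2 ^ (r + 2) ≤ 2 ^ N := Nat.pow_le_pow_right (by omega) h
  have h6 : gat N r S p = c := by
    change (S >>> p &&& rp N r) % (1 <<< N - 2) = c
    have h7 := Nat.two_pow_pos r
    rw [pow_succ, pow_succ] at h5
    rw [Nat.one_shiftLeft, h3, Nat.mod_eq_of_lt (by omega)]
  rw [h6, h4 i hi, Nat.testBit_shiftRight]

theorem cmp_spec {N r A B p X Y s : ℕ} (h : r + 1 < N) (hc : cmp N r A B p X Y s = true) {i : ℕ}
    (hi : i < r) : tr ⟨A, B⟩ (p + N * i) = tr ⟨X, Y⟩ (s + i) := by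
  rw [cmp, Bool.and_eq_true, Nat.beq_eq, Nat.beq_eq] at hc
  have h1 := bit_gat h A p hi
  have h2 := bit_gat h B p hi
  rw [hc.1, bit_cut, decide_eq_true hi, Bool.true_and] at h1
  rw [hc.2, bit_cut, decide_eq_true hi, Bool.true_and] at h2
  simp only [tr, h1, h2]

/-- the test holds below `n` -/
def alt (t : P236JY.T1) (n : Nat) : Bool := loop (al1 t) n true

theorem alt_spec {t : P236JY.T1} {n j : ℕ} (h : alt t n = true) (hj : j < n) : t.t j = true := by
  obtain ⟨m, rfl⟩ : ∃ m, n = m + 1 := ⟨n - 1, by omega⟩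
  exact al_spec (n := m) h (Nat.le_of_lt_succ hj)

/-- membership in a list of triples -/
def Mem3 (a b c : ℕ) (l : T3L) : Prop :=
  T3L.rec (motive := fun _ => Prop) False (fun x y z _ ih => (x = a ∧ y = b ∧ z = c) ∨ ih) l

def al3b (f : Nat → Nat → Nat → Bool) (x y z : Nat) (_ : T3L) (ih : Bool) : Bool :=
  Bool.rec (motive := fun _ => Bool) false ih (f x y z)
/-- the test holds for all triples -/
def al3 (f : Nat → Nat → Nat → Bool) (l : T3L) : Bool :=
  T3L.rec (motive := fun _ => Bool) true (al3b f) l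

theorem al3_spec {f : ℕ → ℕ → ℕ → Bool} {a b c : ℕ} : ∀ {l : T3L}, al3 f l = true → Mem3 a b c l →
    f a b c = true
  | .nil, _, h => h.elim
  | .cons x y z l, h, h' => by
    change Bool.rec (motive := fun _ => Bool) false (al3 f l) (f x y z) = true at h
    rcases h1 : f x y z with _ | _ <;> rw [h1] at h
    · cases h
    · rcases h' with ⟨rfl, rfl, rfl⟩ | h'
      · exact h1
      · exact al3_spec h h'

/-! ### the table of the upper functionals -/

def ch5 (j : Nat) (ih : T3L) (k be : Nat) : T3L := T3L.cons j k be ih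
def ch4 (j : Nat) (ih : T3L) (r k : Nat) : T3L := force (Nat.div r (nat_lit 4)) (ch5 j ih k)
def ch3 (j : Nat) (ih : T3L) (r : Nat) : T3L :=
  ite' (Nat.ble (Nat.mod r (nat_lit 4)) (nat_lit 2))
    (force (Nat.mul (nat_lit 64) (Nat.add (Nat.add (Nat.mod r (nat_lit 4))
      (Nat.mul (nat_lit 4) (Nat.div j (nat_lit 3))))
      (Nat.mul (nat_lit 32) (Nat.mod j (nat_lit 3))))) (ch4 j ih r)) ih
def ch2 (n j : Nat) (ih : T3L) (s : Nat) : T3L :=
  ite' (Nat.ble s n) (force (Nat.sub n s) (ch3 j ih)) ih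
def ch1 (n j : Nat) (ih : T3L) : T3L :=
  force (Nat.add (Nat.mul (nat_lit 13) (Nat.div j (nat_lit 3)))
    (Nat.mul (nat_lit 40) (Nat.mod j (nat_lit 3)))) (ch2 n j ih)
/-- place, key and exponent of `v_2` of the monomials of weight `n` -/
def chL (n : Nat) : T3L := loop (ch1 n) (nat_lit 30) T3L.nil

theorem mem_chL {a b c d : ℕ} (ha : a < 3) (hc : c < 10) (hd : d < 3) :
    Mem3 (3 * c + d) (64 * (a + 4 * c + 32 * d)) b (chL (a + 4 * b + 13 * c + 40 * d)) := by
  refine loop_cov (Q := Mem3 _ _ _) (j := 3 * c + d) _ (show _ < 30 by omega) (fun l => ?_)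
    fun j l hl => bool_ind hl fun _ => bool_ind hl fun _ => Or.inr hl
  have h1 : (3 * c + d) / 3 = c := by omega
  have h2 : (3 * c + d) % 3 = d := by omega
  change Mem3 _ _ _ (ch2 _ _ l (13 * ((3 * c + d) / 3) + 40 * ((3 * c + d) % 3)))
  rw [h1, h2, ch2, Nat.ble_eq_true_of_le (by omega)]
  change Mem3 _ _ _ (ch3 _ l (a + 4 * b + 13 * c + 40 * d - (13 * c + 40 * d)))
  rw [show a + 4 * b + 13 * c + 40 * d - (13 * c + 40 * d) = a + 4 * b by omega, ch3,
    show Nat.ble (Nat.mod (a + 4 * b) (nat_lit 4)) (nat_lit 2) = true from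
      Nat.ble_eq_true_of_le (show (a + 4 * b) % 4 ≤ 2 by omega)]
  refine Or.inl ⟨rfl, ?_, show (a + 4 * b) / 4 = b by omega⟩
  change 64 * ((a + 4 * b) % 4 + 4 * ((3 * c + d) / 3) + 32 * ((3 * c + d) % 3)) = _
  rw [h1, h2, show (a + 4 * b) % 4 = a by omega]

/-- the data of one lower generator: table, transposed table, bound, layout, degree, width -/
structure PT : Type where
  D : DLL
  t : DTr
  tt : Nat
  T : Nat
  du : Nat
  n : Nat
  N : Nat
  dw : Nat
  bb : Nat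

section
variable (p : PT)

def t9 (m k s q : Nat) (x : P) : Bool := cmp p.N p.bb (dN p.D m k) (dO p.D m k) q x.a x.b s
def t8 (m k s q be key : Nat) : Bool := t9 p m k s q (pairAt (DTr.get p.t key) be)
def t7 (m k m' s o j kk be : Nat) : Bool := force (Nat.add m' kk) (t8 p m k s (Nat.add o j) be)
def t6 (m k m' s o r : Nat) : Bool := al3 (t7 p m k m' s o) (chL r)
def t5 (m k m' W b db : Nat) : Bool :=
  ite' (Nat.ble db W) (force (Nat.mul b p.bb) fun s => force (po p.T p.du b) fun o =>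
    force (Nat.sub W db) (t6 p m k m' s o)) true
def t4 (m k m' W b : Nat) : Bool := force (byte p.du b) (t5 p m k m' W b)
def t3 (m k m' W : Nat) : Bool := alt ⟨t4 p m k m' W⟩ p.n
def t2 (m m' u k : Nat) : Bool := force (Nat.add u k) (t3 p m k m')
def t1 (u e4 e3 : Nat) : Bool :=
  force (Nat.add e3 (Nat.mul (nat_lit 7) e4)) fun m =>
    force (Nat.add e3 (Nat.mul (nat_lit 16) e4)) fun m' =>
      force (Nat.add u (Nat.mul (nat_lit 13) e3)) fun u' => al ⟨t2 p m m' u'⟩ (Nat.sub p.tt u')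
def t0 (e4 : Nat) : Bool :=
  force (Nat.add p.dw (Nat.mul (nat_lit 40) e4)) fun u =>
    al ⟨t1 p u e4⟩ (Nat.div (Nat.sub p.tt u) (nat_lit 13))
/-- the check of the transposed table of one lower generator -/
def ckT : Bool :=
  and (Nat.blt (Nat.succ p.bb) p.N) (al ⟨t0 p⟩ (Nat.div (Nat.sub p.tt p.dw) (nat_lit 40)))

end

theorem ckT_spec {p : PT} (h : ckT p = true) {e3 e4 k b a β c d : ℕ} (hb : b < p.n) (ha : a < 3)
    (hc : c < 10) (hd : d < 3) (h1 : p.dw + 40 * e4 + 13 * e3 + k ≤ p.tt)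
    (h2 : a + 4 * β + 13 * c + 40 * d + byte p.du b = p.dw + 40 * e4 + 13 * e3 + k) {i : ℕ}
    (hi : i < p.bb) : tr ⟨dN p.D (e3 + 7 * e4) k, dO p.D (e3 + 7 * e4) k⟩
      (po p.T p.du b + (3 * c + d) + p.N * i) =
      tr (pairAt (DTr.get p.t (e3 + 16 * e4 + 64 * (a + 4 * c + 32 * d))) β) (b * p.bb + i) := by
  rw [ckT, Bool.and_eq_true, Nat.blt_eq] at h
  have h3 : t0 p e4 = true := al_spec h.2 (show e4 ≤ (p.tt - p.dw) / 40 by omega)
  have h4 : t1 p (p.dw + 40 * e4) e4 e3 = true :=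
    al_spec h3 (show e3 ≤ (p.tt - (p.dw + 40 * e4)) / 13 by omega)
  have h5 : t3 p (e3 + 7 * e4) k (e3 + 16 * e4) (p.dw + 40 * e4 + 13 * e3 + k) = true :=
    al_spec (t := ⟨t2 p _ _ _⟩) h4 (show k ≤ p.tt - (p.dw + 40 * e4 + 13 * e3) by omega)
  have h6 : t5 p (e3 + 7 * e4) k (e3 + 16 * e4) (p.dw + 40 * e4 + 13 * e3 + k) b
    (byte p.du b) = true := alt_spec (t := ⟨t4 p _ _ _ _⟩) h5 hb
  rw [t5, Nat.ble_eq_true_of_le (by omega)] at h6
  change t6 p _ _ _ (b * p.bb) (po p.T p.du b) (p.dw + 40 * e4 + 13 * e3 + k - byte p.du b) =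
    true at h6
  rw [show p.dw + 40 * e4 + 13 * e3 + k - byte p.du b = a + 4 * β + 13 * c + 40 * d by omega]
    at h6
  have h7 := al3_spec (f := t7 p _ _ _ _ _) h6 (mem_chL ha hc hd)
  exact cmp_spec h.1 h7 hi

/-! ### the table of the lower functionals -/

def ct1 (N : Nat) (r : Nat → Nat) (w ih : Nat) : Nat :=
  Nat.lor ih (Nat.shiftLeft (r w) (Nat.mul N w))
/-- concatenation of rows -/
def ct (N : Nat) (r : Nat → Nat) (n : Nat) : Nat := loop (ct1 N r) n (nat_lit 0)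

theorem bit_ct {N : ℕ} {r : ℕ → ℕ} (hr : ∀ w, r w < 2 ^ N) (n w : ℕ) {q : ℕ} (hq : q < N) :
    (ct N r n).testBit (q + N * w) = (decide (w < n) && (r w).testBit q) := by
  induction n with
  | zero => exact Nat.zero_testBit _
  | succ n ih =>
    change (ct N r n ||| r n <<< (N * n)).testBit _ = _
    rw [Nat.testBit_or, ih, Nat.testBit_shiftLeft]
    rcases lt_trichotomy w n with h | rfl | h
    · have := Nat.mul_le_mul_left N (Nat.succ_le_of_lt h)
      rw [Nat.mul_succ] at this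
      rw [decide_eq_false (show ¬ q + N * w ≥ N * n by omega), decide_eq_true h,
        decide_eq_true (show w < n + 1 by omega), Bool.false_and, Bool.or_false]
    · simp
    · have := Nat.mul_le_mul_left N (Nat.succ_le_of_lt h)
      rw [Nat.mul_succ] at this
      rw [Nat.testBit_lt_two_pow ((hr n).trans_le (Nat.pow_le_pow_right (by omega) (by omega))),
        decide_eq_false (show ¬ w < n by omega), decide_eq_false (show ¬ w < n + 1 by omega)]
      simp

/-- families of tables -/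
structure HF : Type where
  f : Nat → DLL

/-- the data of one total degree: tables, entries, layout, lower degrees, ranks -/
structure PA : Type where
  H : HF
  l : ML
  T : Nat
  du : Nat
  n1 : Nat
  N : Nat
  dl : Nat
  n : Nat
  dm : Nat
  rk : Nat
  j : Nat

def pl2 (x y : Nat) (ih : T3L) (q : Nat) : T3L := T3L.cons q x y ih
def pl1 (T du w _ _ c d x y : Nat) (_ : ML) (ih : T3L) : T3L :=
  force (Nat.add (po T du w) (Nat.add (Nat.mul (nat_lit 3) c) d)) (pl2 x y ih)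
/-- the places of the entries -/
def plc (T du : Nat) (l : ML) : T3L := ML.rec (motive := fun _ => T3L) T3L.nil (pl1 T du) l
def ls1 (q _ _ : Nat) (_ : T3L) (ih : Nat) : Nat := Nat.lor ih (Nat.shiftLeft (nat_lit 1) q)
/-- the set of the places -/
def lst (l : T3L) : Nat := T3L.rec (motive := fun _ => Nat) (nat_lit 0) ls1 l
def nd1 (q _ _ : Nat) (l : T3L) (ih : Bool) : Bool :=
  and (Nat.beq (cut (nat_lit 1) (lst l) q) (nat_lit 0)) ih
/-- the places are distinct -/
def nod (l : T3L) : Bool := T3L.rec (motive := fun _ => Bool) true nd1 l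
def wf1 (du n1 j w a b c d _ _ : Nat) (_ : ML) (ih : Bool) : Bool :=
  and (and (and (Nat.blt w n1) (Nat.ble a (nat_lit 2))) (Nat.beq (Nat.add (byte du w)
    (Nat.add (Nat.add (Nat.add a (Nat.mul (nat_lit 4) b)) (Nat.mul (nat_lit 13) c))
      (Nat.mul (nat_lit 40) d))) j)) ih
/-- the entries have the right degree -/
def wf (du n1 j : Nat) (l : ML) : Bool := ML.rec (motive := fun _ => Bool) true (wf1 du n1 j) l

theorem bit_lst {q : ℕ} : ∀ {l : T3L}, (lst l).testBit q = true ↔ ∃ x y, Mem3 q x y l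
  | .nil => by
    change Nat.testBit 0 q = true ↔ ∃ _ _, False
    simp
  | .cons a x y l => by
    change (lst l ||| 1 <<< a).testBit q = true ↔ ∃ x' y', (a = q ∧ x = x' ∧ y = y') ∨ Mem3 q x' y' l
    rw [Nat.testBit_or, Bool.or_eq_true, bit_lst, Nat.one_shiftLeft, Nat.testBit_two_pow,
      decide_eq_true_eq]
    exact ⟨fun h => h.elim (fun ⟨x', y', h⟩ => ⟨x', y', Or.inr h⟩)
      fun h => ⟨x, y, Or.inl ⟨h, rfl, rfl⟩⟩,
      fun ⟨x', y', h⟩ => h.elim (fun h => Or.inr h.1) fun h => Or.inl ⟨x', y', h⟩⟩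

section
variable (p : PA)

def r3 (g : DLL → Nat → Nat → Nat) (m s w k : Nat) : Nat := cut p.N (g (p.H.f w) m k) s
def r2 (g : DLL → Nat → Nat → Nat) (m s u v w dw : Nat) : Nat :=
  ite' (Nat.ble dw v) (force (Nat.sub u dw) (r3 p g m s w)) (nat_lit 0)
/-- the row of the lower generator `w` -/
def r1 (g : DLL → Nat → Nat → Nat) (m s u v w : Nat) : Nat := force (byte p.dl w) (r2 p g m s u v w)
def lm1 (_ : Nat) : Nat := cut p.N (lst (plc p.T p.du p.l)) (nat_lit 0)
def lm : Nat := ct p.N (lm1 p) p.n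
def a6 (A B s q x y : Nat) : Bool := cmp p.N p.n A B q x y s
def a5 (s A B : Nat) : Bool :=
  and (Nat.beq (Nat.land (Nat.lor A B) (lm p)) (Nat.lor A B))
    (al3 (a6 p A B s) (plc p.T p.du p.l))
def a4 (m u s' s v : Nat) : Bool :=
  force (ct p.N (r1 p dN m s u v) p.n) fun A => force (ct p.N (r1 p dO m s u v) p.n) (a5 p s' A)
def a3 (m m' u f2 : Nat) : Bool :=
  force (Nat.mul p.n (byte p.rk (Nat.add m' (Nat.mul (nat_lit 64) f2)))) fun s' =>
    force (Nat.mul p.N f2) fun s => force (Nat.sub u (Nat.mul (nat_lit 4) f2)) (a4 p m u s' s)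
def a2 (u f4 f3 : Nat) : Bool :=
  force (Nat.add f3 (Nat.mul (nat_lit 7) f4)) fun m =>
    force (Nat.add f3 (Nat.mul (nat_lit 16) f4)) fun m' =>
      force (Nat.sub u (Nat.mul (nat_lit 13) f3)) fun u' =>
        al ⟨a3 p m m' u'⟩ (Nat.div (Nat.sub u' p.dm) (nat_lit 4))
def a1 (f4 : Nat) : Bool :=
  force (Nat.sub p.j (Nat.mul (nat_lit 40) f4)) fun u =>
    al ⟨a2 p u f4⟩ (Nat.div (Nat.sub u p.dm) (nat_lit 13))
def a0 (w : Nat) : Bool := Nat.ble p.dm (byte p.dl w)
/-- the check of the transposed table of one total degree -/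
def ckA : Bool :=
  and (and (and (Nat.blt (Nat.succ p.n) p.N) (alt ⟨a0 p⟩ p.n))
    (and (wf p.du p.n1 p.j p.l) (nod (plc p.T p.du p.l))))
    (al ⟨a1 p⟩ (Nat.div (Nat.sub p.j p.dm) (nat_lit 40)))

theorem r1_lt (g : DLL → ℕ → ℕ → ℕ) (m s u v w : ℕ) : r1 p g m s u v w < 2 ^ p.N :=
  bool_ind (Q := (· < 2 ^ p.N)) (Nat.two_pow_pos _) fun _ => cut_lt _ _ _

theorem bit_r1 (g : DLL → ℕ → ℕ → ℕ) (m s : ℕ) {u v w q : ℕ} (hw : w < p.n)
    (h : byte p.dl w ≤ v) (hq : q < p.N) : (ct p.N (r1 p g m s u v) p.n).testBit (q + p.N * w) =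
      (g (p.H.f w) m (u - byte p.dl w)).testBit (s + q) := by
  rw [bit_ct (r1_lt p g m s u v) _ _ hq, decide_eq_true hw, Bool.true_and, r1, force_eq, r2,
    Nat.ble_eq_true_of_le h]
  exact (bit_cut _ _ _ _).trans (by rw [decide_eq_true hq]; rfl)

end

theorem ckA_wf {p : PA} (h : ckA p = true) :
    wf p.du p.n1 p.j p.l = true ∧ nod (plc p.T p.du p.l) = true := by
  simp only [ckA, Bool.and_eq_true] at h
  exact h.1.2

theorem ckA_spec {p : PA} (h : ckA p = true) {w k f2 f3 f4 : ℕ} (hw : w < p.n) (hk : 4 * f2 ≤ k)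
    (hj : byte p.dl w + k + 13 * f3 + 40 * f4 = p.j) {q : ℕ} (hq : q < p.N) :
    (∀ x y, Mem3 q x y (plc p.T p.du p.l) →
      tr ⟨dN (p.H.f w) (f3 + 7 * f4) k, dO (p.H.f w) (f3 + 7 * f4) k⟩ (p.N * f2 + q) =
        tr ⟨x, y⟩ (p.n * byte p.rk (f3 + 16 * f4 + 64 * f2) + w)) ∧
    (tr ⟨dN (p.H.f w) (f3 + 7 * f4) k, dO (p.H.f w) (f3 + 7 * f4) k⟩ (p.N * f2 + q) ≠ 0 →
      ∃ x y, Mem3 q x y (plc p.T p.du p.l)) := by
  simp only [ckA, Bool.and_eq_true, Nat.blt_eq] at h
  obtain ⟨⟨⟨h1, h2⟩, -⟩, h3⟩ := h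
  have h4 : p.dm ≤ byte p.dl w := Nat.le_of_ble_eq_true (alt_spec h2 hw)
  have h5 : a1 p f4 = true := al_spec h3 (show f4 ≤ (p.j - p.dm) / 40 by omega)
  have h6 : a2 p (p.j - 40 * f4) f4 f3 = true :=
    al_spec h5 (show f3 ≤ (p.j - 40 * f4 - p.dm) / 13 by omega)
  have h7 : a4 p (f3 + 7 * f4) (p.j - 40 * f4 - 13 * f3)
      (p.n * byte p.rk (f3 + 16 * f4 + 64 * f2)) (p.N * f2) (p.j - 40 * f4 - 13 * f3 - 4 * f2) =
      true := al_spec (t := ⟨a3 p _ _ _⟩) h6
    (show f2 ≤ (p.j - 40 * f4 - 13 * f3 - p.dm) / 4 by omega)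
  have k1 := fun g => bit_r1 p g (f3 + 7 * f4) (p.N * f2) (u := p.j - 40 * f4 - 13 * f3)
    (v := p.j - 40 * f4 - 13 * f3 - 4 * f2) hw (by omega) hq
  rw [show p.j - 40 * f4 - 13 * f3 - byte p.dl w = k by omega] at k1
  rw [a4, force_eq, force_eq, a5, Bool.and_eq_true, Nat.beq_eq] at h7
  refine ⟨fun x y hm => ?_, fun h0 => ?_⟩
  · have h8 := al3_spec h7.2 hm
    rw [← cmp_spec h1 h8 hw]
    simp only [tr, k1]
  · have h8 := congrArg (·.testBit (q + p.N * w)) h7.1
    change (_ &&& _ : ℕ).testBit _ = (_ ||| _ : ℕ).testBit _ at h8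
    have h9 : ((dN (p.H.f w) (f3 + 7 * f4) k).testBit (p.N * f2 + q) ||
        (dO (p.H.f w) (f3 + 7 * f4) k).testBit (p.N * f2 + q)) = true := by
      revert h0
      rw [tr]
      cases (dN (p.H.f w) (f3 + 7 * f4) k).testBit (p.N * f2 + q) <;>
        cases (dO (p.H.f w) (f3 + 7 * f4) k).testBit (p.N * f2 + q) <;> simp
    rw [Nat.testBit_and, Nat.testBit_or, k1, k1, h9, Bool.and_eq_true] at h8
    have h10 := h8.2
    rw [lm, bit_ct (r := lm1 p) (fun _ => cut_lt _ _ _) _ _ hq, Bool.and_eq_true, lm1, bit_cut,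
      Bool.and_eq_true] at h10
    exact bit_lst.1 ((congrArg _ (Nat.zero_add q)).symm.trans h10.2.2)

end Vale.Agent.P236JL

end
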