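import Vale.Agent.P236JL.Ck
import Vale.Agent.P236JI.Tab

/-!
# P236JL / Tb : the checks give the meaning of the transposed tables
-/

noncomputable section

namespace Vale.Agent.P236JL

open MvPolynomial Vale.Agent.P236EL Vale.Agent.P236KE Vale.Agent.P236K3 Vale.Agent.P236JY
open Vale.Agent.P236KE.S90 Vale.Agent.P236JK.Ini
open Vale.Agent.P236JK (ML MLL DTr DTL pairAt)

variable {T du n1 j : ℕ}

theorem wf_cons {w a b c d x y : ℕ} {l : ML} (h : wf du n1 j (.cons w a b c d x y l) = true) :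
    (w < n1 ∧ a < 3 ∧ byte du w + wt4 (a, b, c, d) = j) ∧ wf du n1 j l = true := by
  change (Nat.blt w n1 && Nat.ble a 2 && Nat.beq (byte du w + (a + 4 * b + 13 * c + 40 * d)) j &&
    wf du n1 j l) = true at h
  simp only [Bool.and_eq_true, Nat.blt_eq, Nat.ble_eq, Nat.beq_eq] at h
  exact ⟨⟨h.1.1.1, Nat.lt_succ_of_le h.1.1.2, h.1.2⟩, h.2⟩

theorem mem_plc {w : ℕ} {U : Q4} : ∀ {l : ML}, (w, U) ∈ ky l →
    ∃ x y, Mem3 (po T du w + (3 * U.2.2.1 + U.2.2.2)) x y (plc T du l)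
  | .nil, h => absurd h List.not_mem_nil
  | .cons _ _ _ _ _ x y l, h => by
    rcases List.mem_cons.1 h with h | h
    · cases h
      exact ⟨x, y, Or.inl ⟨rfl, rfl, rfl⟩⟩
    · obtain ⟨x', y', h1⟩ := mem_plc h
      exact ⟨x', y', Or.inr h1⟩

theorem nodup_ky : ∀ {l : ML}, nod (plc T du l) = true → (ky l).Nodup
  | .nil, _ => List.nodup_nil
  | .cons w a b c d x y l, h => by
    change (Nat.beq (cut 1 (lst (plc T du l)) (po T du w + (3 * c + d))) 0 &&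
      nod (plc T du l)) = true at h
    rw [Bool.and_eq_true, Nat.beq_eq] at h
    refine List.nodup_cons.2 ⟨fun h1 => ?_, nodup_ky h.2⟩
    have h2 := bit_cut 1 (lst (plc T du l)) (po T du w + (3 * c + d)) 0
    rw [h.1, add_zero, bit_lst.2 (mem_plc h1)] at h2
    cases h2

theorem allE_of {R : ℕ → Q4 → P → Prop} : ∀ {l : ML}, wf du n1 j l = true →
    (∀ w U x y, w < n1 → U.1 < 3 → byte du w + wt4 U = j →
      Mem3 (po T du w + (3 * U.2.2.1 + U.2.2.2)) x y (plc T du l) → R w U ⟨x, y⟩) → AllE R l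
  | .nil, _, _ => trivial
  | .cons w a b c d x y _, h, H =>
    ⟨H w (a, b, c, d) x y (wf_cons h).1.1 (wf_cons h).1.2.1 (wf_cons h).1.2.2
      (Or.inl ⟨rfl, rfl, rfl⟩),
      allE_of (wf_cons h).2 fun w U x y h1 h2 h3 h4 => H w U x y h1 h2 h3 (Or.inr h4)⟩

theorem ky_of_mem {q x y : ℕ} : ∀ {l : ML}, wf du n1 j l = true → Mem3 q x y (plc T du l) →
    ∃ w U, (w, U) ∈ ky l ∧ (w < n1 ∧ U.1 < 3 ∧ byte du w + wt4 U = j) ∧
      po T du w + (3 * U.2.2.1 + U.2.2.2) = q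
  | .nil, _, h => h.elim
  | .cons w a b c d _ _ _, h, h' => h'.elim
    (fun h1 => ⟨w, (a, b, c, d), List.mem_cons_self, (wf_cons h).1, h1.1⟩) fun h1 => by
      obtain ⟨w', U, h2, h3⟩ := ky_of_mem (wf_cons h).2 h1
      exact ⟨w', U, List.mem_cons_of_mem _ h2, h3⟩

theorem plc_lt {w w' : ℕ} {U : Q4} (h : w < w') (hU : byte du w + wt4 U ≤ T) :
    po T du w + (3 * U.2.2.1 + U.2.2.2) < po T du w' := by
  have := po_lt T du h
  rw [wt4] at hU
  omega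

theorem plc_inj {w w' : ℕ} {U U' : Q4} (hT : T < 120) (hj : j ≤ T) (h : byte du w + wt4 U = j)
    (h' : byte du w' + wt4 U' = j) (h0 : U.1 < 3) (h0' : U'.1 < 3)
    (e : po T du w + (3 * U.2.2.1 + U.2.2.2) = po T du w' + (3 * U'.2.2.1 + U'.2.2.2)) :
    w = w' ∧ U = U' := by
  rcases lt_trichotomy w w' with h1 | rfl | h1
  · have := plc_lt h1 (h.le.trans hj)
    omega
  · rw [wt4] at h h'
    have h1 : U.2.2.2 < 3 := by omega
    have h2 : U'.2.2.2 < 3 := by omega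
    have h3 : U.2.2.1 = U'.2.2.1 := by omega
    have h4 : U.2.2.2 = U'.2.2.2 := by omega
    have h5 : U.1 + 4 * U.2.1 = U'.1 + 4 * U'.2.1 := by omega
    exact ⟨rfl, Prod.ext (by omega) (Prod.ext (by omega) (Prod.ext h3 h4))⟩
  · have := plc_lt h1 (h'.le.trans hj)
    omega

variable [Fact (Nat.Prime 3)]

theorem rJ_y (q : ℕ) (w : sph.G (q + 1)) (w' : sph.G (q + 2)) : rJ.y q w w' =
    yJ K ((sph.rs K).y q w w') (yH q w) (mkLD 90 (sph.d (q + 1)) (sph.n (q + 1))) sph.s3 sph.s4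
      (byte (sph.d q) w) w' := by
  rw [← sL_eq]
  rfl

theorem coeff_rJ (q : ℕ) (w : sph.G (q + 1)) (w' : sph.G (q + 2)) {F V : Q4}
    (h : byte (sph.d q) w + wt4 F ≤ 90) (hV : V.1 < 3)
    (e : byte (sph.d (q + 1)) w' + wt4 V = byte (sph.d q) w + wt4 F) :
    coeff (m4 V) (rJ.y q w w' (m4 F)) =
      (tr ⟨dN (hD q w) (F.2.2.1 + 7 * F.2.2.2) (F.1 + 4 * F.2.1),
        dO (hD q w) (F.2.2.1 + 7 * F.2.2.2) (F.1 + 4 * F.2.1)⟩
        (po 90 (sph.d (q + 1)) (sph.n (q + 1)) * F.2.1 +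
          (po 90 (sph.d (q + 1)) w' + (3 * V.2.2.1 + V.2.2.2))) : K) := by
  have h1 : wtM (m4 F) = wt4 F := wt_m4 F
  have h2 : wtM (m4 V) = wt4 V := wt_m4 V
  rw [rJ_y, coeff_yJ (by decide : 90 < 120) (by rw [h1]; change _ ≤ 90; omega)
    (by rw [h1, h2]; change _ + byte (sph.d (q + 1)) w' = _; omega) (by rwa [m4_0]),
    tr_yH _ _ (by omega), sL_eq, pl, m4_0, m4_1, m4_2, m4_3, m4_2, m4_3]
  rfl

theorem rJ_ne {q : ℕ} {w : sph.G (q + 1)} {w' : sph.G (q + 2)} {F : Q4} {m : ℕ →₀ ℕ}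
    (h : byte (sph.d q) w + wt4 F ≤ 90) (hm : coeff m (rJ.y q w w' (m4 F)) ≠ 0) :
    ∃ V, m = m4 V ∧ byte (sph.d (q + 1)) w' + wt4 V = byte (sph.d q) w + wt4 F := by
  have h1 : wtM (m4 F) = wt4 F := wt_m4 F
  rw [rJ_y] at hm
  have h2 := (yJ_ne (by rw [h1]; change _ ≤ 90; omega) hm).1
  change wtM m + byte (sph.d (q + 1)) w' = _ at h2
  obtain ⟨V, rfl⟩ : ∃ V, m = m4 V :=
    ⟨(m 0, m 1, m 2, m 3), Vale.Agent.P236K2.eq_mk4 (show wtM m < 121 by omega)⟩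
  have h3 : wtM (m4 V) = wt4 V := wt_m4 V
  exact ⟨V, rfl, by omega⟩

/-- **The table of the upper functionals.** -/
theorem tabT_of {q : ℕ} {up : DTL} {bb n : ℕ} (h : Rg (cT q up bb) 0 n) (hn : sph.n q = n) :
    TabT up bb (sph.d q) (sph.d (q + 1)) 90 (rJ.y q) := fun w b V E hV h1 h2 h3 => by
  have h4 := h w (Nat.zero_le _) (hn ▸ w.2)
  rw [cT_eq] at h4
  rw [coeff_rJ q w b (by omega) hV (by omega)]
  rw [wt4, wt4] at h2
  rw [wt4] at h1
  rw [Nat.add_comm (po 90 (sph.d (q + 1)) (sph.n (q + 1)) * E.2.1),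
    ckT_spec h4 (a := V.1) (β := V.2.1) b.2 hV (by omega) (by omega)
    (by change byte (sph.d q) w + _ + _ + _ ≤ 90; omega)
    (by change _ + byte (sph.d (q + 1)) b = byte (sph.d q) w + _ + _ + _; omega) h3]
  rfl

/-- **The table of the lower functionals.** -/
theorem tabA_of {q : ℕ} {lo : MLL} {rk : ℕ} (h : Rg (cA q lo rk) 0 91) :
    TabA lo rk (sph.d q) (sph.d (q + 1)) 90 (rJ.y q) := fun w F hF => by
  have h1 := h _ (Nat.zero_le _) (Nat.lt_succ_of_le hF)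
  rw [cA_eq] at h1
  obtain ⟨h2, h3⟩ := ckA_wf h1
  have h4 := fun (w' : ℕ) (U : Q4) (hw : w' < sph.n (q + 1))
      (e : byte (sph.d (q + 1)) w' + wt4 U = byte (sph.d q) w + wt4 F) =>
    ckA_spec h1 (w := w) (k := F.1 + 4 * F.2.1) (f2 := F.2.1) (f3 := F.2.2.1) (f4 := F.2.2.2) w.2
      (Nat.le_add_left _ _)
      (by change byte (sph.d q) w + _ + _ + _ = byte (sph.d q) w + wt4 F; rw [wt4]; omega)
      (plc_lt (U := U) hw (e.le.trans hF))
  refine ⟨nodup_ky h3, allE_of (T := 90) h2 fun w' U x y hw hU e hm => ⟨hw, hU, e, ?_⟩,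
    fun w' m hm h0 => ?_⟩
  · rw [coeff_rJ q w ⟨w', hw⟩ hF hU e]
    exact congrArg _ ((h4 w' U hw e).1 x y hm)
  · obtain ⟨V, rfl, e⟩ := rJ_ne hF hm
    rw [m4_0] at h0
    rw [coeff_rJ q w w' hF h0 e] at hm
    obtain ⟨x, y, h5⟩ := (h4 w' V w'.2 e).2 fun h6 => hm ((congrArg _ h6).trans Nat.cast_zero)
    obtain ⟨w₁, U, h6, ⟨-, h7, h8⟩, h9⟩ := ky_of_mem h2 h5
    obtain ⟨rfl, rfl⟩ := plc_inj (by decide : 90 < 120) hF h8 e h7 h0 h9
    exact ⟨U, h6, rfl⟩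

end Vale.Agent.P236JL

end
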