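import Vale.Agent.P236JL.Tb
import Vale.Agent.P236JL.C.A0
import Vale.Agent.P236JL.C.A1
import Vale.Agent.P236JL.C.A2
import Vale.Agent.P236JL.C.A3
import Vale.Agent.P236JL.C.A4
import Vale.Agent.P236JL.C.A5
import Vale.Agent.P236JL.C.A6
import Vale.Agent.P236JL.C.A7
import Vale.Agent.P236JL.C.A8
import Vale.Agent.P236JL.C.A9
import Vale.Agent.P236JL.C.A10
import Vale.Agent.P236JL.C.A11
import Vale.Agent.P236JL.C.A12
import Vale.Agent.P236JL.C.A13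
import Vale.Agent.P236JL.C.A14
import Vale.Agent.P236JL.C.A15
import Vale.Agent.P236JL.C.A16
import Vale.Agent.P236JL.C.A17
import Vale.Agent.P236JL.C.A18
import Vale.Agent.P236JL.C.T1
import Vale.Agent.P236JL.C.T2
import Vale.Agent.P236JL.C.T3
import Vale.Agent.P236JL.C.T4
import Vale.Agent.P236JL.C.T5
import Vale.Agent.P236JL.C.T6
import Vale.Agent.P236JL.C.T7
import Vale.Agent.P236JL.C.T8
import Vale.Agent.P236JL.C.T9
import Vale.Agent.P236JL.C.T10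
import Vale.Agent.P236JL.C.T11
import Vale.Agent.P236JL.C.T12
import Vale.Agent.P236JL.C.T13
import Vale.Agent.P236JL.C.T14
import Vale.Agent.P236JL.C.T15
import Vale.Agent.P236JL.C.T16
import Vale.Agent.P236JL.C.T17
import Vale.Agent.P236JL.C.T18
import Vale.Agent.P236JL.C.T19

/-!
# P236JL / All : the transposed tables describe the lifted resolution
-/

noncomputable section

namespace Vale.Agent.P236JL

open Vale.Agent.P236JY Vale.Agent.P236KE.S90 Vale.Agent.P236JK.Ini D C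

variable [Fact (Nat.Prime 3)]

theorem tabA0 : TabA lo0 rk (sph.d 0) (sph.d 1) 90 (rJ.y 0) := tabA_of rA0
theorem tabA1 : TabA lo1 rk (sph.d 1) (sph.d 2) 90 (rJ.y 1) := tabA_of rA1
theorem tabA2 : TabA lo2 rk (sph.d 2) (sph.d 3) 90 (rJ.y 2) := tabA_of rA2
theorem tabA3 : TabA lo3 rk (sph.d 3) (sph.d 4) 90 (rJ.y 3) := tabA_of rA3
theorem tabA4 : TabA lo4 rk (sph.d 4) (sph.d 5) 90 (rJ.y 4) := tabA_of rA4
theorem tabA5 : TabA lo5 rk (sph.d 5) (sph.d 6) 90 (rJ.y 5) := tabA_of rA5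
theorem tabA6 : TabA lo6 rk (sph.d 6) (sph.d 7) 90 (rJ.y 6) := tabA_of rA6
theorem tabA7 : TabA lo7 rk (sph.d 7) (sph.d 8) 90 (rJ.y 7) := tabA_of rA7
theorem tabA8 : TabA lo8 rk (sph.d 8) (sph.d 9) 90 (rJ.y 8) := tabA_of rA8
theorem tabA9 : TabA lo9 rk (sph.d 9) (sph.d 10) 90 (rJ.y 9) := tabA_of rA9
theorem tabA10 : TabA lo10 rk (sph.d 10) (sph.d 11) 90 (rJ.y 10) := tabA_of rA10
theorem tabA11 : TabA lo11 rk (sph.d 11) (sph.d 12) 90 (rJ.y 11) := tabA_of rA11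
theorem tabA12 : TabA lo12 rk (sph.d 12) (sph.d 13) 90 (rJ.y 12) := tabA_of rA12
theorem tabA13 : TabA lo13 rk (sph.d 13) (sph.d 14) 90 (rJ.y 13) := tabA_of rA13
theorem tabA14 : TabA lo14 rk (sph.d 14) (sph.d 15) 90 (rJ.y 14) := tabA_of rA14
theorem tabA15 : TabA lo15 rk (sph.d 15) (sph.d 16) 90 (rJ.y 15) := tabA_of rA15
theorem tabA16 : TabA lo16 rk (sph.d 16) (sph.d 17) 90 (rJ.y 16) := tabA_of rA16
theorem tabA17 : TabA lo17 rk (sph.d 17) (sph.d 18) 90 (rJ.y 17) := tabA_of rA17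
theorem tabA18 : TabA lo18 rk (sph.d 18) (sph.d 19) 90 (rJ.y 18) := tabA_of rA18

theorem tabT1 : TabT up1 23 (sph.d 1) (sph.d 2) 90 (rJ.y 1) :=
  tabT_of rT1 (by decide +kernel)
theorem tabT2 : TabT up2 23 (sph.d 2) (sph.d 3) 90 (rJ.y 2) :=
  tabT_of rT2 (by decide +kernel)
theorem tabT3 : TabT up3 22 (sph.d 3) (sph.d 4) 90 (rJ.y 3) :=
  tabT_of rT3 (by decide +kernel)
theorem tabT4 : TabT up4 22 (sph.d 4) (sph.d 5) 90 (rJ.y 4) :=
  tabT_of rT4 (by decide +kernel)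
theorem tabT5 : TabT up5 22 (sph.d 5) (sph.d 6) 90 (rJ.y 5) :=
  tabT_of rT5 (by decide +kernel)
theorem tabT6 : TabT up6 21 (sph.d 6) (sph.d 7) 90 (rJ.y 6) :=
  tabT_of rT6 (by decide +kernel)
theorem tabT7 : TabT up7 21 (sph.d 7) (sph.d 8) 90 (rJ.y 7) :=
  tabT_of rT7 (by decide +kernel)
theorem tabT8 : TabT up8 21 (sph.d 8) (sph.d 9) 90 (rJ.y 8) :=
  tabT_of rT8 (by decide +kernel)
theorem tabT9 : TabT up9 20 (sph.d 9) (sph.d 10) 90 (rJ.y 9) :=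
  tabT_of rT9 (by decide +kernel)
theorem tabT10 : TabT up10 20 (sph.d 10) (sph.d 11) 90 (rJ.y 10) :=
  tabT_of rT10 (by decide +kernel)
theorem tabT11 : TabT up11 19 (sph.d 11) (sph.d 12) 90 (rJ.y 11) :=
  tabT_of rT11 (by decide +kernel)
theorem tabT12 : TabT up12 19 (sph.d 12) (sph.d 13) 90 (rJ.y 12) :=
  tabT_of rT12 (by decide +kernel)
theorem tabT13 : TabT up13 19 (sph.d 13) (sph.d 14) 90 (rJ.y 13) :=
  tabT_of rT13 (by decide +kernel)
theorem tabT14 : TabT up14 18 (sph.d 14) (sph.d 15) 90 (rJ.y 14) :=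
  tabT_of rT14 (by decide +kernel)
theorem tabT15 : TabT up15 18 (sph.d 15) (sph.d 16) 90 (rJ.y 15) :=
  tabT_of rT15 (by decide +kernel)
theorem tabT16 : TabT up16 18 (sph.d 16) (sph.d 17) 90 (rJ.y 16) :=
  tabT_of rT16 (by decide +kernel)
theorem tabT17 : TabT up17 17 (sph.d 17) (sph.d 18) 90 (rJ.y 17) :=
  tabT_of rT17 (by decide +kernel)
theorem tabT18 : TabT up18 17 (sph.d 18) (sph.d 19) 90 (rJ.y 18) :=
  tabT_of rT18 (by decide +kernel)
theorem tabT19 : TabT up19 16 (sph.d 19) (sph.d 20) 90 (rJ.y 19) :=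
  tabT_of rT19 (by decide +kernel)

end Vale.Agent.P236JL

end
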