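import Vale.Agent.P236JL.Tr
import Vale.Agent.P236JY.Sph

/-!
# P236JL / Ck : the comparisons for the tables of the lifted resolution
-/

noncomputable section

namespace Vale.Agent.P236JL

open Vale.Agent.P236KE Vale.Agent.P236K3 Vale.Agent.P236JY Vale.Agent.P236KE.S90
open Vale.Agent.P236JK (ML MLL DTr DTL)

def cT4 (q : Nat) (up : DTL) (bb w du n N dw : Nat) : Bool :=
  ckT ⟨hD q w, DTL.get up w, nat_lit 90, nat_lit 90, du, n, N, dw, bb⟩
def cT3 (q : Nat) (up : DTL) (bb w du n N : Nat) : Bool :=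
  force (byte (sph.d q) w) (cT4 q up bb w du n N)
def cT2 (q : Nat) (up : DTL) (bb w du n : Nat) : Bool :=
  force (po (nat_lit 90) du n) (cT3 q up bb w du n)
def cT1 (q : Nat) (up : DTL) (bb w du : Nat) : Bool :=
  force (sph.n (Nat.succ q)) (cT2 q up bb w du)
/-- the check of the upper table for the generator `w` -/
def cT (q : Nat) (up : DTL) (bb w : Nat) : Bool := force (sph.d (Nat.succ q)) (cT1 q up bb w)

theorem cT_eq (q : ℕ) (up : DTL) (bb w : ℕ) : cT q up bb w = ckT ⟨hD q w, DTL.get up w, 90, 90,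
    sph.d (q + 1), sph.n (q + 1), po 90 (sph.d (q + 1)) (sph.n (q + 1)), byte (sph.d q) w, bb⟩ := by
  rw [cT, force_eq, cT1, force_eq, cT2, force_eq, cT3, force_eq, cT4]

def cA6 (q : Nat) (lo : MLL) (rk j du n1 N dl n dm : Nat) : Bool :=
  ckA ⟨⟨hD q⟩, MLL.get lo j, nat_lit 90, du, n1, N, dl, n, dm, rk, j⟩
def cA5 (q : Nat) (lo : MLL) (rk j du n1 N dl n : Nat) : Bool :=
  force (byte dl (nat_lit 0)) (cA6 q lo rk j du n1 N dl n)
def cA4 (q : Nat) (lo : MLL) (rk j du n1 N dl : Nat) : Bool :=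
  force (sph.n q) (cA5 q lo rk j du n1 N dl)
def cA3 (q : Nat) (lo : MLL) (rk j du n1 N : Nat) : Bool :=
  force (sph.d q) (cA4 q lo rk j du n1 N)
def cA2 (q : Nat) (lo : MLL) (rk j du n1 : Nat) : Bool :=
  force (po (nat_lit 90) du n1) (cA3 q lo rk j du n1)
def cA1 (q : Nat) (lo : MLL) (rk j du : Nat) : Bool :=
  force (sph.n (Nat.succ q)) (cA2 q lo rk j du)
/-- the check of the lower table for the total degree `j` -/
def cA (q : Nat) (lo : MLL) (rk j : Nat) : Bool := force (sph.d (Nat.succ q)) (cA1 q lo rk j)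

theorem cA_eq (q : ℕ) (lo : MLL) (rk j : ℕ) : cA q lo rk j = ckA ⟨⟨hD q⟩, MLL.get lo j, 90,
    sph.d (q + 1), sph.n (q + 1), po 90 (sph.d (q + 1)) (sph.n (q + 1)), sph.d q, sph.n q,
    byte (sph.d q) 0, rk, j⟩ := by
  rw [cA, force_eq, cA1, force_eq, cA2, force_eq, cA3, force_eq, cA4, force_eq, cA5, force_eq, cA6]

/-- the test holds on an interval -/
def Rg (f : ℕ → Bool) (a b : ℕ) : Prop := ∀ i, a ≤ i → i < b → f i = true

/-- the test on the interval from `a` to `a + n` -/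
def rgC (f : Nat → Bool) (a n : Nat) : Bool := am5 ⟨f⟩ n a

theorem Rg.nil (f : ℕ → Bool) (a : ℕ) : Rg f a a := fun _ h h' => absurd h (Nat.not_le.2 h')

theorem Rg.cons {f : ℕ → Bool} (a n : ℕ) {b : ℕ} (h : rgC f a n = true)
    (h' : Rg f (a + n + 1) b) : Rg f a b := fun i h1 h2 =>
  (Nat.lt_or_ge (a + n) i).elim (fun h3 => h' i h3 h2) fun h3 => am5_spec (t := ⟨f⟩) h h1 h3

theorem Rg.app {f : ℕ → Bool} {a b c : ℕ} (h : Rg f a b) (h' : Rg f b c) : Rg f a c :=
  fun i h1 h2 => (Nat.lt_or_ge i b).elim (h i h1) fun h3 => h' i h3 h2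

end Vale.Agent.P236JL

end
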